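import Vale.Agent.P167.H760.EnvD

/-!
# P167: `I_NEU` from the averaged Neumann condition at a horizontal flat side
-/

namespace Vale.Agent.P167.H760

open Finset MeasureTheory Filter Topology Vale.Agent.P167.BR
open Vale.Agent.P167.H365 (Env)
open Vale.Agent.P167.H167 (WD W_eq_WD maj_dat deep_dat)
open scoped ContDiff

/-- **N-RED** (with a non-empty interval). -/
def NRED (K : ℤ) : Prop := ∀ ε : ℝ, 0 < ε → ∃ κ : ℝ, 0 < κ ∧ ∀ (R : ℤ) (D : Finset (ℤ × ℤ))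
  (p : ℤ × ℤ) (f : ℤ × ℤ → ℝ) (M : ℝ), H318.CoConn D → ∀ (a b : ℤ) (k : ℕ) (φ : ℤ → ℝ),
  a ≤ b → 1 ≤ k →
  (k : ℝ) ≤ κ * R → (∀ x ∈ Icc a b, Env K R D p f M (x, 0)) → (∀ x, |φ x| ≤ 1) →
  (∀ x x' : ℤ, |φ x - φ x'| ≤ |(x : ℝ) - x'| / R) → (∀ x, φ x ≠ 0 → a + R ≤ x ∧ x ≤ b - R) →
  |∑ x ∈ Icc a b, φ x * (WD D p f (x, k) - WD D p f (x, 0))| ≤
    ε * k * ((M + 1) * (((b - a : ℤ) : ℝ) / R + 1))

/-- A sum over the naturals below `n` as a sum over an interval of integers. -/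
theorem sum_range_Icc {n : ℕ} {a b : ℤ} (ha : 0 ≤ a) (hb : b < n) (F : ℤ → ℝ)
    (hF : ∀ x, F x ≠ 0 → a ≤ x ∧ x ≤ b) : ∑ x ∈ range n, F x = ∑ x ∈ Icc a b, F x := by
  have h1 : ∑ x ∈ range n, F x = ∑ y ∈ (range n).map Nat.castEmbedding, F y := by
    rw [sum_map]
    rfl
  rw [h1]
  symm
  refine sum_subset (fun x hx => ?_) (fun x _ hx => ?_)
  · rw [mem_Icc] at hx
    rw [Finset.mem_map]
    exact ⟨x.toNat, by rw [mem_range]; omega, by simp; omega⟩
  · by_contra h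
    exact hx (mem_Icc.2 (hF x h))

/-- The numbers of the proof. -/
structure Num (n : ℕ) (α β δ c tp : ℝ) (R a b : ℤ) : Prop where
  n0 : (0 : ℝ) < n
  α0 : 0 ≤ α
  β1 : β ≤ 1
  tp0 : 0 ≤ tp
  htp : β ≤ tp ∨ tp ≤ α
  cδ : c * n ≤ δ / 512 * n
  nδ : 8 ≤ n * δ
  R1 : (1 : ℝ) ≤ R
  Rc : (R : ℝ) ≤ c * n
  a1 : (α + δ / 2) * n ≤ a
  a2 : (a : ℝ) < (α + δ / 2) * n + 1
  b1 : (b : ℝ) ≤ (β - δ / 2) * n
  b2 : (β - δ / 2) * n < b + 1

namespace Num

variable {n : ℕ} {α β δ c tp : ℝ} {R a b x : ℤ}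

theorem supp (N : Num n α β δ c tp R a b) (h1 : (α + δ) * n ≤ x) (h2 : (x : ℝ) ≤ (β - δ) * n) :
    a + R ≤ x ∧ x ≤ b - R := by
  obtain ⟨n0, α0, β1, tp0, htp, cδ, nδ, R1, Rc, a1, a2, b1, b2⟩ := N
  constructor
  · have : ((a + R : ℤ) : ℝ) < x + 1 := by push_cast; linarith
    have : a + R < x + 1 := by exact_mod_cast this
    omega
  · have : (x : ℝ) < ((b - R + 1 : ℤ) : ℝ) := by push_cast; linarith
    have : x < b - R + 1 := by exact_mod_cast this
    omega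

theorem ends (N : Num n α β δ c tp R a b) : 0 < a ∧ b < n := by
  obtain ⟨n0, α0, β1, tp0, htp, cδ, nδ, R1, Rc, a1, a2, b1, b2⟩ := N
  have hαn : 0 ≤ α * n := by positivity
  have hβn : β * n ≤ n := by nlinarith
  constructor
  · have : (0 : ℝ) < ((a : ℤ) : ℝ) := by linarith
    exact_mod_cast this
  · have : (b : ℝ) < ((n : ℤ) : ℝ) := by push_cast; linarith
    exact_mod_cast this

theorem env (N : Num n α β δ c tp R a b) (h1 : a ≤ x) (h2 : x ≤ b) :
    64 * R < x ∧ x + 64 * R < n ∧ 64 * R < |x - ⌊tp * n⌋₊| := by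
  obtain ⟨n0, α0, β1, tp0, htp, cδ, nδ, R1, Rc, a1, a2, b1, b2⟩ := N
  have hx1 : (a : ℝ) ≤ x := by exact_mod_cast h1
  have hx2 : (x : ℝ) ≤ b := by exact_mod_cast h2
  have hαn : 0 ≤ α * n := by positivity
  have hβn : β * n ≤ n := by nlinarith
  refine ⟨?_, ?_, ?_⟩
  · have : ((64 * R : ℤ) : ℝ) < x := by push_cast; linarith
    exact_mod_cast this
  · have : ((x + 64 * R : ℤ) : ℝ) < ((n : ℤ) : ℝ) := by push_cast; linarith
    exact_mod_cast this
  · have hfl1 : (⌊tp * n⌋₊ : ℝ) ≤ tp * n := Nat.floor_le (mul_nonneg tp0 n0.le)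
    have hfl2 : tp * n < ⌊tp * n⌋₊ + 1 := Nat.lt_floor_add_one _
    have : ((64 * R : ℤ) : ℝ) < ((|x - (⌊tp * n⌋₊ : ℤ)| : ℤ) : ℝ) := by
      push_cast
      rw [lt_abs]
      rcases htp with htp | htp
      · right
        have : β * n ≤ tp * n := mul_le_mul_of_nonneg_right htp n0.le
        linarith
      · left
        have : tp * n ≤ α * n := mul_le_mul_of_nonneg_right htp n0.le
        linarith
    exact_mod_cast this

end Num

/-- The sum over the side in the frame. -/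
theorem sum_frame (S : CA.Dat) (f : ℂ → ℝ) (n : ℕ) (w : ℤ × ℤ) (r : Fin 4) (k : ℕ) (ψ : ℝ → ℝ)
    {α β δ c : ℝ} {R a b : ℤ} (N : Num n α β δ c S.tp R a b)
    (hψ : ∀ t, ψ t ≠ 0 → α + δ ≤ t ∧ t ≤ β - δ) :
    ∑ x ∈ range n, ψ (x / n) *
        (S.W n f ((n : ℤ) • w + (x : ℤ) • E6.dir r + (k : ℤ) • E6.dir (r + 1)) -
          S.W n f ((n : ℤ) • w + (x : ℤ) • E6.dir r)) =
    ∑ x ∈ Icc a b, ψ (x / n) * (WD ((Tr.fr ((n : ℤ) • w) r).pre (S.D n))
      ((Tr.fr ((n : ℤ) • w) r).S.symm (S.b n))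
      (fun z => CA.cms f (1 / n) ((Tr.fr ((n : ℤ) • w) r).S z)) (x, k) -
      WD ((Tr.fr ((n : ℤ) • w) r).pre (S.D n)) ((Tr.fr ((n : ℤ) • w) r).S.symm (S.b n))
      (fun z => CA.cms f (1 / n) ((Tr.fr ((n : ℤ) • w) r).S z)) (x, 0)) := by
  set T := Tr.fr ((n : ℤ) • w) r with hT
  set g : ℤ → ℝ := fun x => WD (T.pre (S.D n)) (T.S.symm (S.b n))
    (fun z => CA.cms f (1 / n) (T.S z)) (x, k) - WD (T.pre (S.D n)) (T.S.symm (S.b n))
    (fun z => CA.cms f (1 / n) (T.S z)) (x, 0) with hg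
  have hgx : ∀ x : ℕ, S.W n f ((n : ℤ) • w + (x : ℤ) • E6.dir r + (k : ℤ) • E6.dir (r + 1)) -
      S.W n f ((n : ℤ) • w + (x : ℤ) • E6.dir r) = g x := by
    intro x
    have e1 := T.WD_T (D := T.pre (S.D n)) (T.S.symm (S.b n)) (CA.cms f (1 / n)) ((x : ℤ), (k : ℤ))
    have e2 := T.WD_T (D := T.pre (S.D n)) (T.S.symm (S.b n)) (CA.cms f (1 / n)) ((x : ℤ), (0 : ℤ))
    rw [T.im_pre, Equiv.apply_symm_apply] at e1 e2
    simp only [hg]
    rw [← e1, ← e2, W_eq_WD, W_eq_WD, hT, fr_S0, Tr.fr_S]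
  simp only [hgx]
  obtain ⟨ha, hb⟩ := N.ends
  have := sum_range_Icc (n := n) (a := a) (b := b) ha.le hb (fun x => ψ (x / n) * g x)
    (fun x hx => by
      obtain ⟨h3, h4⟩ := hψ _ (left_ne_zero_of_mul hx)
      rw [le_div_iff₀ N.n0] at h3
      rw [div_le_iff₀ N.n0] at h4
      have h5 := N.supp h3 h4
      have h6 : 1 ≤ R := by exact_mod_cast N.R1
      omega)
  refine (sum_congr rfl fun x _ => ?_).trans this
  rw [Int.cast_natCast]

/-- **One half of a side.** -/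
theorem half (hN : NRED 8) (S : CA.Dat) {f : ℂ → ℝ} (hf : S.FF f) {w : ℤ × ℤ} {r : Fin 4}
    (h1 : E6.face w r ∈ S.Q) (h2 : E6.face w (r - 1) ∉ S.Q) {α β δ A : ℝ} (hα : 0 ≤ α)
    (hβ : β ≤ 1) (htp : β ≤ S.tp ∨ S.tp ≤ α) (hδ : 0 < δ) (hδ1 : δ ≤ 1) (ψ : ℝ → ℝ) (hA : 1 ≤ A)
    (hψ1 : ∀ t, |ψ t| ≤ A) (hψ2 : ∀ t t', |ψ t - ψ t'| ≤ A * |t - t'|)
    (hψ3 : ∀ t, ψ t ≠ 0 → α + δ ≤ t ∧ t ≤ β - δ) {ε : ℝ} (hε : 0 < ε) :
    ∃ r₀ > 0, ∀ h : ℝ, 0 < h → h < r₀ → ∀ᶠ n : ℕ in atTop,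
      |(∑ x ∈ range n, ψ (x / n) *
        (S.W n f ((n : ℤ) • w + (x : ℤ) • E6.dir r + (⌊h * n⌋₊ : ℤ) • E6.dir (r + 1)) -
          S.W n f ((n : ℤ) • w + (x : ℤ) • E6.dir r))) / n| ≤ ε * h := by
  obtain ⟨ε0, C, hε0, hC, hmaj⟩ := maj_dat S hf
  obtain ⟨ρ, hρ, hdeep⟩ := deep_dat S hf.1
  -- the scale
  obtain ⟨c, hcp, hcδ, hcε, hcρ⟩ : ∃ c : ℝ, 0 < c ∧ c ≤ δ / 512 ∧ c ≤ ε0 / 2 ∧ c ≤ ρ / 128 :=
    ⟨min (δ / 512) (min (ε0 / 2) (ρ / 128)), by positivity, min_le_left _ _,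
      (min_le_right _ _).trans (min_le_left _ _), (min_le_right _ _).trans (min_le_right _ _)⟩
  have hc1 : c ≤ 1 := by linarith
  obtain ⟨B, hB⟩ : ∃ B : ℝ, B = (1 + C + 1) * (2 / c + 1) := ⟨_, rfl⟩
  have hBp : 0 < B := by rw [hB]; positivity
  obtain ⟨κ, hκ, hK⟩ := hN (ε / (A * B)) (by positivity)
  refine ⟨κ * c / 2, by positivity, fun h hh hhr => ?_⟩
  have hN1 : ∀ᶠ n : ℕ in atTop, max (2 / c) (max (1 / h) (max (8 / δ) (max (4 / ε0) (4 / ρ)))) ≤ n :=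
    eventually_atTop.2 ⟨⌈max (2 / c) (max (1 / h) (max (8 / δ) (max (4 / ε0) (4 / ρ))))⌉₊,
      fun n hn => (Nat.le_ceil _).trans (by exact_mod_cast hn)⟩
  filter_upwards [hmaj, hdeep, hN1] with n hM hD hn1
  rw [max_le_iff, max_le_iff, max_le_iff, max_le_iff] at hn1
  obtain ⟨n1, n2, n3, n4, n5⟩ := hn1
  have hnp : (0 : ℝ) < n := lt_of_lt_of_le (by positivity) n1
  have hn0 : 0 < n := by exact_mod_cast hnp
  rw [div_le_iff₀ hcp] at n1
  rw [div_le_iff₀ hh] at n2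
  rw [div_le_iff₀ hδ] at n3
  rw [div_le_iff₀ hε0] at n4
  rw [div_le_iff₀ hρ] at n5
  obtain ⟨k, hk⟩ : ∃ k, k = ⌊h * n⌋₊ := ⟨_, rfl⟩
  obtain ⟨R, hR⟩ : ∃ R : ℤ, R = ⌊c * n⌋ := ⟨_, rfl⟩
  obtain ⟨a, ha⟩ : ∃ a : ℤ, a = ⌈(α + δ / 2) * n⌉ := ⟨_, rfl⟩
  obtain ⟨b, hb⟩ : ∃ b : ℤ, b = ⌊(β - δ / 2) * n⌋ := ⟨_, rfl⟩
  have hR1 : (R : ℝ) ≤ c * n := by rw [hR]; exact Int.floor_le _
  have hR2 : c * n < R + 1 := by rw [hR]; exact Int.lt_floor_add_one _
  have hRp : 1 ≤ R := by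
    rw [hR, Int.le_floor]
    push_cast
    linarith
  have hRp' : (1 : ℝ) ≤ R := by exact_mod_cast hRp
  have N : Num n α β δ c S.tp R a b := ⟨hnp, hα, hβ, S.tp0.le, htp,
    mul_le_mul_of_nonneg_right hcδ hnp.le, n3, hRp', hR1, by rw [ha]; exact Int.le_ceil _,
    by rw [ha]; exact Int.ceil_lt_add_one _, by rw [hb]; exact Int.floor_le _,
    by rw [hb]; exact Int.lt_floor_add_one _⟩
  have hk1 : (k : ℝ) ≤ h * n := by rw [hk]; exact Nat.floor_le (by positivity)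
  have hk0 : 1 ≤ k := by
    rw [hk]
    exact Nat.le_floor (by push_cast; linarith)
  rw [← hk, sum_frame S f n w r k ψ N hψ3, abs_div, abs_of_pos hnp, div_le_iff₀ hnp]
  rcases lt_or_ge b a with hab | hab
  · rw [Icc_eq_empty (by omega), sum_empty, abs_zero]
    positivity
  -- the local hypotheses
  set T := Tr.fr ((n : ℤ) • w) r with hT
  have henv : ∀ x ∈ Icc a b, Env 8 R (T.pre (S.D n)) (T.S.symm (S.b n))
      (fun z => CA.cms f (1 / n) (T.S z)) (1 + C) (x, 0) := by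
    intro x hx
    rw [mem_Icc] at hx
    obtain ⟨e1, e2, e3⟩ := N.env hx.1 hx.2
    refine env_fr S h1 h2 hRp e1 e2 e3 (fun u hu => hM u hu) ?_ hD ?_
    · have : c * n ≤ ε0 / 2 * n := mul_le_mul_of_nonneg_right hcε hnp.le
      linarith
    · have : c * n ≤ ρ / 128 * n := mul_le_mul_of_nonneg_right hcρ hnp.le
      linarith
  have hAp : 0 < A := by linarith
  have hkκ : (k : ℝ) ≤ κ * R := by
    have h3 : h * n ≤ κ * c / 2 * n := mul_le_mul_of_nonneg_right hhr.le hnp.le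
    have h4 : c * n / 2 ≤ R := by linarith
    have h5 : κ * (c * n / 2) ≤ κ * R := mul_le_mul_of_nonneg_left h4 hκ.le
    linarith
  have hRn : (R : ℝ) ≤ n := by
    have : c * n ≤ 1 * n := mul_le_mul_of_nonneg_right hc1 hnp.le
    linarith
  have hfin := hK R (T.pre (S.D n)) (T.S.symm (S.b n)) (fun z => CA.cms f (1 / n) (T.S z)) (1 + C)
    (Tr.fr_coConn _ _ (coConn_dat S hn0)) a b k (fun x => ψ (x / n) / A) hab hk0 hkκ henv
    (fun x => by
      rw [abs_div, abs_of_pos hAp, div_le_one hAp]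
      exact hψ1 _)
    (fun x x' => by
      rw [← sub_div, abs_div, abs_of_pos hAp, div_le_iff₀ hAp]
      refine (hψ2 _ _).trans ?_
      rw [← sub_div, abs_div, abs_of_pos hnp, mul_comm A]
      refine mul_le_mul_of_nonneg_right ?_ hAp.le
      exact div_le_div_of_nonneg_left (abs_nonneg _) (by linarith) hRn)
    (fun x hx => by
      obtain ⟨h3, h4⟩ := hψ3 _ fun h0 => hx (by rw [h0, zero_div])
      rw [le_div_iff₀ hnp] at h3
      rw [div_le_iff₀ hnp] at h4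
      exact N.supp h3 h4)
  have h3 : ((b - a : ℤ) : ℝ) / R + 1 ≤ 2 / c + 1 := by
    have h4 : ((b - a : ℤ) : ℝ) ≤ n := by
      have := N.ends
      have : b - a ≤ n := by omega
      exact_mod_cast this
    have h5 : ((b - a : ℤ) : ℝ) / R ≤ 2 / c := by
      rw [div_le_div_iff₀ (by linarith) hcp]
      have h6 : ((b - a : ℤ) : ℝ) * c ≤ n * c := mul_le_mul_of_nonneg_right h4 hcp.le
      linarith
    linarith
  have h5 : (0 : ℝ) ≤ ((b - a : ℤ) : ℝ) / R + 1 := by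
    have : (0 : ℝ) ≤ ((b - a : ℤ) : ℝ) := by exact_mod_cast (by omega : 0 ≤ b - a)
    positivity
  have hfac : ∀ G : ℤ → ℝ, ∑ x ∈ Icc a b, ψ (x / n) * G x =
      A * ∑ x ∈ Icc a b, ψ (x / n) / A * G x := by
    intro G
    rw [mul_sum]
    refine sum_congr rfl fun x _ => ?_
    field_simp
  rw [hfac, abs_mul, abs_of_pos hAp]
  refine (mul_le_mul_of_nonneg_left hfin hAp.le).trans ?_
  have h6 : ε / (A * B) * k * ((1 + C + 1) * (((b - a : ℤ) : ℝ) / R + 1)) ≤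
      ε / (A * B) * (h * n) * ((1 + C + 1) * (2 / c + 1)) := by
    gcongr
  refine (mul_le_mul_of_nonneg_left h6 hAp.le).trans (le_of_eq ?_)
  rw [← hB]
  field_simp

/-- Margins, bounds and Lipschitz constant of a test function. -/
theorem exists_margin {φ : ℝ → ℝ} {tp : ℝ} (hφ : ContDiff ℝ ∞ φ)
    (hs : tsupport φ ⊆ Set.Ioo 0 1 \ {tp}) : ∃ δ A : ℝ, 0 < δ ∧ δ ≤ 1 ∧ 1 ≤ A ∧
      (∀ t, |φ t| ≤ A) ∧ (∀ t t', |φ t - φ t'| ≤ A * |t - t'|) ∧
      ∀ t, φ t ≠ 0 → δ ≤ t ∧ t ≤ 1 - δ ∧ δ ≤ |t - tp| := by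
  have hcs : HasCompactSupport φ := by
    refine IsCompact.of_isClosed_subset (isCompact_Icc (a := (0 : ℝ)) (b := 1))
      (isClosed_tsupport φ) fun t ht => ?_
    exact Set.Ioo_subset_Icc_self (hs ht).1
  obtain ⟨L, hL⟩ := ContDiff.lipschitzWith_of_hasCompactSupport hcs hφ (by simp)
  obtain ⟨M, hM⟩ := hφ.continuous.bounded_above_of_compact_support hcs
  obtain ⟨δ, hδ, hsub⟩ := hcs.isCompact.exists_thickening_subset_open
    (isOpen_Ioo.sdiff isClosed_singleton) hs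
  refine ⟨min (δ / 2) 1, max 1 (max M L), by positivity, min_le_right _ _, le_max_left _ _,
    fun t => ?_, fun t t' => ?_, fun t ht => ?_⟩
  · exact (hM t).trans ((le_max_left _ _).trans (le_max_right _ _))
  · have h := hL.dist_le_mul t t'
    rw [Real.dist_eq, Real.dist_eq] at h
    exact h.trans (mul_le_mul_of_nonneg_right ((le_max_right _ _).trans (le_max_right _ _))
      (abs_nonneg _))
  · have ht' : t ∈ tsupport φ := subset_tsupport _ ht
    have h1 : ∀ s, |s - t| < δ → s ∈ Set.Ioo (0 : ℝ) 1 \ {tp} := fun s hs' => by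
      refine hsub (Metric.mem_thickening_iff.2 ⟨t, ht', ?_⟩)
      rwa [Real.dist_eq]
    have h2 := (h1 (t - δ / 2) (by
      rw [show t - δ / 2 - t = -(δ / 2) by ring, abs_neg, abs_of_pos (by positivity)]
      linarith)).1.1
    have h3 := (h1 (t + δ / 2) (by
      rw [show t + δ / 2 - t = δ / 2 by ring, abs_of_pos (by positivity)]
      linarith)).1.2
    have h4 : min (δ / 2) 1 ≤ δ / 2 := min_le_left _ _
    refine ⟨by linarith, by linarith, ?_⟩
    by_contra hcon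
    push Not at hcon
    rw [abs_sub_comm] at hcon
    exact (h1 tp (by linarith)).2 rfl

/-- **`I_NEU` from `NRED`**: the averaged Neumann condition along the sides of the polygons. -/
theorem i_neu (hN : NRED 8) : CA.I_NEU := by
  intro S f hf w r h1 h2 φ hφ hs ε hε
  obtain ⟨δ, A, hδ, hδ1, hA, hφ1, hφ2, hφ3⟩ := exists_margin hφ hs
  -- the two halves
  obtain ⟨φa, hφa⟩ : ∃ φa : ℝ → ℝ, φa = fun t => if t < S.tp then φ t else 0 := ⟨_, rfl⟩
  obtain ⟨φb, hφb⟩ : ∃ φb : ℝ → ℝ, φb = fun t => if t < S.tp then 0 else φ t := ⟨_, rfl⟩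
  have h0 : φ S.tp = 0 := by
    by_contra h
    have := (hφ3 _ h).2.2
    rw [sub_self, abs_zero] at this
    linarith
  obtain ⟨r1, hr1, H1⟩ := half hN S hf h1 h2 (α := 0) (β := S.tp) le_rfl S.tp1.le (Or.inl le_rfl)
    hδ hδ1 φa hA (fun t => by
      simp only [hφa]
      split_ifs
      · exact hφ1 t
      · rw [abs_zero]; linarith)
    (fun t t' => by
      have hA0 : 0 ≤ A := by linarith
      simp only [hφa]
      split_ifs with e1 e2 e2
      · exact hφ2 _ _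
      · rw [sub_zero]
        have h3 := hφ2 t S.tp
        rw [h0, sub_zero] at h3
        refine h3.trans (mul_le_mul_of_nonneg_left ?_ hA0)
        rw [abs_of_nonpos (by linarith), abs_of_nonpos (by linarith)]
        linarith
      · rw [zero_sub, abs_neg]
        have h3 := hφ2 t' S.tp
        rw [h0, sub_zero] at h3
        refine h3.trans (mul_le_mul_of_nonneg_left ?_ hA0)
        rw [abs_of_nonpos (by linarith), abs_of_nonneg (by linarith)]
        linarith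
      · rw [sub_self, abs_zero]; positivity)
    (fun t ht => by
      simp only [hφa] at ht
      split_ifs at ht with e1
      · obtain ⟨h3, h4, h5⟩ := hφ3 t ht
        rw [abs_of_neg (by linarith)] at h5
        exact ⟨by linarith, by linarith⟩
      · exact absurd rfl ht) (half_pos hε)
  obtain ⟨r2, hr2, H2⟩ := half hN S hf h1 h2 (α := S.tp) (β := 1) S.tp0.le le_rfl (Or.inr le_rfl)
    hδ hδ1 φb hA (fun t => by
      simp only [hφb]
      split_ifs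
      · rw [abs_zero]; linarith
      · exact hφ1 t)
    (fun t t' => by
      have hA0 : 0 ≤ A := by linarith
      simp only [hφb]
      split_ifs with e1 e2 e2
      · rw [sub_self, abs_zero]; positivity
      · rw [zero_sub, abs_neg]
        have h3 := hφ2 t' S.tp
        rw [h0, sub_zero] at h3
        refine h3.trans (mul_le_mul_of_nonneg_left ?_ hA0)
        rw [abs_of_nonneg (by linarith), abs_of_nonpos (by linarith)]
        linarith
      · rw [sub_zero]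
        have h3 := hφ2 t S.tp
        rw [h0, sub_zero] at h3
        refine h3.trans (mul_le_mul_of_nonneg_left ?_ hA0)
        rw [abs_of_nonneg (by linarith), abs_of_nonneg (by linarith)]
        linarith
      · exact hφ2 _ _)
    (fun t ht => by
      simp only [hφb] at ht
      split_ifs at ht with e1
      · exact absurd rfl ht
      · obtain ⟨h3, h4, h5⟩ := hφ3 t ht
        rw [abs_of_nonneg (by linarith)] at h5
        exact ⟨by linarith, by linarith⟩) (half_pos hε)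
  refine ⟨min r1 r2, lt_min hr1 hr2, fun h hh hhr => ?_⟩
  filter_upwards [H1 h hh (hhr.trans_le (min_le_left _ _)),
    H2 h hh (hhr.trans_le (min_le_right _ _))] with n hn1 hn2
  have hsplit : ∀ G : ℕ → ℝ, (∑ x ∈ range n, φ (x / n) * G x) / n =
      (∑ x ∈ range n, φa (x / n) * G x) / n + (∑ x ∈ range n, φb (x / n) * G x) / n := by
    intro G
    rw [← add_div, ← sum_add_distrib]
    congr 1
    refine sum_congr rfl fun x _ => ?_
    simp only [hφa, hφb]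
    split_ifs <;> ring
  rw [hsplit]
  refine (abs_add_le _ _).trans ?_
  linarith

end Vale.Agent.P167.H760
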