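import Vale.Agent.P167.H760.Geo
import Vale.Agent.P167.H167.MajDat

/-!
# P167, block N-RED: the local hypotheses at the sides of the polygons of the core
-/

namespace Vale.Agent.P167.H760

open Finset MeasureTheory Vale.Agent.P167.BR
open Vale.Agent.P167.H365 (Fl nm_le' nm_hdv_tlv Env TA)
open Vale.Agent.P167.H167 (Fd)
open Vale.Agent.P167.H638.L (Deep)

theorem face_opp (w : ℤ × ℤ) (r : Fin 4) :
    E6.face (w + E6.dir r) (r + 2) = E6.face w (r - 1) := by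
  fin_cases r <;> ext <;> simp [E6.face, E6.dir]

/-- The point of the side. -/
theorem fr_S0 (a : ℤ × ℤ) (r : Fin 4) (x : ℤ) :
    (Tr.fr a r).S (x, 0) = a + x • E6.dir r := by
  rw [Tr.fr_S]
  simp

/-- The squares on the two sides. -/
theorem fr_cell {n : ℕ} {w : ℤ × ℤ} {r : Fin 4} {v : ℤ × ℤ} (h1 : 0 ≤ v.1) (h2 : v.1 < n)
    {c : ℤ × ℤ} (hc : (0 ≤ v.2 ∧ v.2 < n ∧ c = E6.face w r) ∨
      (-n ≤ v.2 ∧ v.2 < 0 ∧ c = E6.face w (r - 1))) :
    n * c.1 ≤ ((Tr.fr ((n : ℤ) • w) r).Q v).1 ∧ ((Tr.fr ((n : ℤ) • w) r).Q v).1 < n * c.1 + n ∧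
      n * c.2 ≤ ((Tr.fr ((n : ℤ) • w) r).Q v).2 ∧
        ((Tr.fr ((n : ℤ) • w) r).Q v).2 < n * c.2 + n := by
  obtain ⟨a, b⟩ := w
  obtain ⟨x, y⟩ := v
  rw [Tr.fr_Q, Tr.fr_S]
  dsimp only at h1 h2 hc
  rcases hc with ⟨h3, h4, rfl⟩ | ⟨h3, h4, rfl⟩ <;> fin_cases r <;>
    simp [E6.dir, E6.face, mul_add] <;> refine ⟨?_, ?_, ?_, ?_⟩ <;> omega

/-- Flatness in the frame. -/
theorem fl_fr {Q : Finset (ℤ × ℤ)} {n : ℕ} {w : ℤ × ℤ} {r : Fin 4} (h1 : E6.face w r ∈ Q)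
    (h2 : E6.face w (r - 1) ∉ Q) {x m : ℤ} (hx1 : m ≤ x) (hx2 : x + m < n) :
    Fl ((Tr.fr ((n : ℤ) • w) r).pre (CA.enl Q n)) (x, 0) m := by
  intro v hv
  rw [nm_le'] at hv
  simp only [Prod.fst_sub, Prod.snd_sub] at hv
  rw [Tr.mem_pre]
  constructor
  · intro h
    by_contra h0
    exact H436.not_mem_enl h2 (fr_cell (by omega) (by omega)
      (Or.inr ⟨by omega, not_le.1 h0, rfl⟩)) h
  · intro h
    exact H436.mem_enl.2 ⟨_, h1, fr_cell (by omega) (by omega)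
      (Or.inl ⟨h, by omega, rfl⟩)⟩

/-- The majorant of a polygon of the core. -/
def Majn (S : CA.Dat) (f : ℂ → ℝ) (ε C : ℝ) (n : ℕ) : Prop := ∀ u : ℤ × ℤ,
  (∃ v, (nm (v - u) : ℝ) ≤ ε * n ∧ v ∉ S.D n) →
    ∃ Y : Cfg → ℝ, Fd Y ∧ (∀ ω ω', (∀ v, ε * n < (nm (v - u) : ℝ) → ω v = ω' v) → Y ω = Y ω') ∧
      (∀ ω, |XD (S.D n) (S.b n) (CA.cms f (1 / n)) ω| ≤ Y ω) ∧
      (∀ ω, ∀ A ∈ pcs ω (S.D n), 2 * |∏ B ∈ (pcs ω (S.D n)).erase A,
        wp (S.D n) B (mass (S.D n) (S.b n) (CA.cms f (1 / n)) B)| ≤ Y ω) ∧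
      ∫ ω, Y ω ^ 4 ∂μ ≤ C

/-- **The local hypotheses.** -/
theorem env_fr (S : CA.Dat) {f : ℂ → ℝ} {ε C ρ : ℝ} {n : ℕ} {w : ℤ × ℤ} {r : Fin 4} {x R : ℤ}
    (h1 : E6.face w r ∈ S.Q) (h2 : E6.face w (r - 1) ∉ S.Q) (hR : 1 ≤ R) (hx1 : 64 * R < x)
    (hx2 : x + 64 * R < n) (hb : 64 * R < |x - ⌊S.tp * n⌋₊|) (hM : Majn S f ε C n)
    (hε : (R : ℝ) + 2 ≤ ε * n) (hd : Deep (ρ * n) (S.D n) (CA.cms f (1 / n)))
    (hρ : 64 * (R : ℝ) + 2 ≤ ρ * n) :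
    Env 8 R ((Tr.fr ((n : ℤ) • w) r).pre (S.D n)) ((Tr.fr ((n : ℤ) • w) r).S.symm (S.b n))
      (fun z => CA.cms f (1 / n) ((Tr.fr ((n : ℤ) • w) r).S z)) (1 + C) (x, 0) := by
  classical
  set T := Tr.fr ((n : ℤ) • w) r with hT
  have hn : 0 < n := by omega
  have hfl : Fl (T.pre (S.D n)) (x, 0) (64 * R) := fl_fr h1 h2 (by omega) (by omega)
  -- a square off the domain
  have hoff : T.Q (x, -1) ∉ S.D n := by
    have h3 := hfl (x, -1) (by rw [nm_le']; simp only [Prod.fst_sub, Prod.snd_sub]; omega)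
    rw [T.mem_pre] at h3
    intro h4
    have := h3.1 h4
    dsimp only at this
    omega
  have hnm : nm (T.Q (x, -1) - T.S (x, 0)) ≤ 2 := by
    have h3 := Tr.fr_dQ ((n : ℤ) • w) r (x, -1) (x, 0)
    have h4 : nm (((x, -1) : ℤ × ℤ) - (x, 0)) = 1 := by simp [nm]
    rw [h4] at h3
    exact h3
  have h64 : (8 : ℤ) * 8 * R = 64 * R := by ring
  refine ⟨by norm_num, hR, ?_, ?_, ?_, ?_, T.hpot_pre (hpot_dat S hn), ?_⟩
  · rw [h64]; exact hfl
  · intro y s hs hsR z hz hz1 hz2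
    exact Tr.fr_gf _ r (H436.geo_dat S (m := 2 * R + 2) (by omega) (by omega)) le_rfl y s hs hsR z
      hz hz1 hz2
  · rw [h64, ← T.dS, Equiv.apply_symm_apply, hT, fr_S0]
    have h3 := (S.enc (S.p 0) S.r).1 ⟨0, rfl, by rw [zero_add]; exact S.step⟩
    have hk : ⌊S.tp * n⌋₊ ≤ n := by
      have h1 : S.tp * n ≤ n := by nlinarith [S.tp1, S.tp0, (Nat.cast_nonneg n : (0 : ℝ) ≤ n)]
      exact_mod_cast (Nat.floor_le (by have := S.tp0; positivity)).trans h1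
    refine side_far (by positivity) (by exact_mod_cast hk) hx1 hx2 ?_ ?_
    · rintro ⟨e1, e2⟩
      rw [e1, e2, face_opp] at h3
      exact h2 h3.1
    · intro _ _
      exact hb
  · intro z hz
    have hz' : CA.cms f (1 / n) (T.S z) ≠ 0 := hz
    have h3 : ρ * n < (nm (T.Q (x, -1) - T.S z) : ℝ) := by
      by_contra hcon
      exact hoff (hd _ hz' _ (not_lt.1 hcon))
    have h4 : nm (T.Q (x, -1) - T.S z) ≤ 2 + nm (z - (x, 0)) := by
      have h5 := H45.nm_sub_le (T.Q (x, -1)) (T.S (x, 0)) (T.S z)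
      rw [T.dS, H45.nm_sub_comm (x, 0) z] at h5
      omega
    have h5 : ((64 * R : ℤ) : ℝ) < (nm (z - (x, 0)) : ℝ) := by
      have h6 : (nm (T.Q (x, -1) - T.S z) : ℝ) ≤ 2 + (nm (z - (x, 0)) : ℝ) := by exact_mod_cast h4
      push_cast
      linarith
    rw [h64]
    exact_mod_cast h5
  · obtain ⟨Y, hY1, hY2, hY3, hY4, hY5⟩ := hM (T.S (x, 0)) ⟨T.Q (x, -1), by
      have h3 : (nm (T.Q (x, -1) - T.S (x, 0)) : ℝ) ≤ 2 := by exact_mod_cast hnm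
      have h4 : (1 : ℝ) ≤ R := by exact_mod_cast hR
      linarith, hoff⟩
    refine ⟨fun ω => Y (T.C ω), ?_, ?_, ?_, ?_, ?_⟩
    · obtain ⟨F, hF⟩ := hY1
      refine ⟨T.pre F, fun ω ω' h => hF _ _ fun v hv => ?_⟩
      rw [T.C_apply', T.C_apply']
      congr 1
      refine h _ ?_
      rw [Finset.mem_coe, T.mem_pre, Equiv.apply_symm_apply]
      exact hv
    · intro ω ω' h
      refine hY2 _ _ fun v hv => ?_
      rw [T.C_apply', T.C_apply']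
      congr 1
      refine h _ ?_
      show R < nm (T.Q.symm v - (x, 0))
      have h3 := Tr.fr_dQ ((n : ℤ) • w) r (T.Q.symm v) (x, 0)
      rw [← hT, Equiv.apply_symm_apply] at h3
      have h4 : ((R + 1 : ℤ) : ℝ) < (nm (v - T.S (x, 0)) : ℝ) := by push_cast; linarith
      have h5 : R + 1 < nm (v - T.S (x, 0)) := by exact_mod_cast h4
      omega
    · intro ω
      have h3 := T.XD_T (ω := ω) (D := T.pre (S.D n)) (T.S.symm (S.b n)) (CA.cms f (1 / n))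
      rw [T.im_pre, Equiv.apply_symm_apply] at h3
      rw [← h3]
      exact hY3 _
    · intro ω A hA
      have h3 := T.TA_T (ω := ω) (D := T.pre (S.D n)) (T.S.symm (S.b n)) (CA.cms f (1 / n)) hA
      rw [T.im_pre, Equiv.apply_symm_apply] at h3
      rw [← h3]
      have h4 : T.imE A ∈ pcs (T.C ω) (S.D n) := by
        have := mem_image_of_mem T.imE hA
        rwa [← T.pcsT, T.im_pre] at this
      refine le_trans ?_ (hY4 _ _ h4)
      unfold TA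
      rw [abs_mul]
      exact mul_le_mul_of_nonneg_right (H365.abs_wp' _ _ _) (abs_nonneg _)
    · have h3 : ∫ ω, Y (T.C ω) ∂μ = ∫ ω, Y ω ∂μ := T.integral_C Y
      rw [h3]
      have h4 : ∫ ω, Y ω ∂μ ≤ ∫ ω, (1 + Y ω ^ 4) ∂μ := by
        refine integral_mono hY1.int ((integrable_const _).add ?_) fun ω => ?_
        · have : Fd fun ω => Y ω ^ 4 := by
            obtain ⟨F, hF⟩ := hY1
            exact ⟨F, fun ω ω' h => by simp only [hF ω ω' h]⟩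
          exact this.int
        · show Y ω ≤ 1 + Y ω ^ 4
          nlinarith [sq_nonneg (Y ω ^ 2 - 1 / 2), sq_nonneg (Y ω - 1 / 2)]
      have h5 : ∫ ω, (1 + Y ω ^ 4) ∂μ = 1 + ∫ ω, Y ω ^ 4 ∂μ := by
        rw [integral_add (integrable_const _) ?_]
        · simp
        · have : Fd fun ω => Y ω ^ 4 := by
            obtain ⟨F, hF⟩ := hY1
            exact ⟨F, fun ω ω' h => by simp only [hF ω ω' h]⟩
          exact this.int
      linarith

end Vale.Agent.P167.H760
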