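import Vale.Agent.P167.H760.Tr

/-!
# P167, block N-RED: the frames at the sides of the lattice polygons
-/

namespace Vale.Agent.P167.H760

open Finset MeasureTheory Vale.Agent.P167.BR Vale.Agent.P167.H542
open Vale.Agent.P167.H135 (fx rl mp_rl shE shC shE_neg)

theorem nm_add_one {v w : ℤ × ℤ} (h1 : |v.1 - w.1| ≤ 1) (h2 : |v.2 - w.2| ≤ 1) :
    nm v ≤ nm w + 1 := by
  rw [H365.nm_le']
  have h3 := H365.nm_le'.1 (le_refl (nm w))
  rw [abs_le] at h1 h2
  omega

namespace Tr

/-! ### Translations -/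

theorem cC_tr (a : ℤ × ℤ) (ω : Cfg) :
    cC (Equiv.addRight a) (!decide (Even (a.1 + a.2))) ω = shC a ω := by
  funext v
  simp [cC, shC, rl, H135.trS, sub_eq_add_neg]

/-- Translation by `a`. -/
def tr (a : ℤ × ℤ) : Tr where
  o := !decide (Even (a.1 + a.2))
  S := Equiv.addRight a
  Q := Equiv.addRight a
  E := ⟨shE a, shE (-a), shE_neg a, BR.shE_neg' a⟩
  hd e := by
    by_cases ha : Even (a.1 + a.2)
    · simpa [ha] using H135.hdv_sh ha e
    · simpa [ha] using H135.hdv_sh' ha e
  tl e := by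
    by_cases ha : Even (a.1 + a.2)
    · simpa [ha] using BR.tlv_sh ha e
    · simpa [ha] using BR.tlv_sh' ha e
  lf e := by
    by_cases ha : Even (a.1 + a.2)
    · simpa [ha] using (BR.ls_sh ha e).1
    · simpa [ha] using (BR.ls_sh' ha e).1
  rt e := by
    by_cases ha : Even (a.1 + a.2)
    · simpa [ha] using (BR.ls_sh ha e).2
    · simpa [ha] using (BR.ls_sh' ha e).2
  nx0 h ω e := by
    rw [cC_tr]
    have ha : Even (a.1 + a.2) := by simpa using h
    exact H135.nx_sh ha ω e
  nx1 h ω e := by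
    rw [cC_tr]
    have ha : ¬ Even (a.1 + a.2) := by simpa using h
    exact H135.nx_sh' ha ω e
  co v z := by
    simp only [Co, Equiv.coe_addRight, Prod.fst_add, Prod.snd_add]
    constructor <;> rintro ⟨h1, h2⟩ <;> constructor <;> omega
  dS z z' := by simp

/-! ### The rotation by a right angle -/

/-- The rotation on sites. -/
def rS : Equiv.Perm (ℤ × ℤ) where
  toFun z := (-z.2, z.1)
  invFun z := (z.2, -z.1)
  left_inv z := by simp
  right_inv z := by simp

/-- The rotation on squares. -/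
def rQ : Equiv.Perm (ℤ × ℤ) where
  toFun z := (-z.2 - 1, z.1)
  invFun z := (z.2, -z.1 - 1)
  left_inv z := by simp
  right_inv z := by simp

/-- The rotation on medial edges. -/
def rE : Equiv.Perm Ed where
  toFun
    | Sum.inl v => Sum.inr (-v.2 - 1, v.1)
    | Sum.inr v => Sum.inl (-v.2 - 2, v.1)
  invFun
    | Sum.inr v => Sum.inl (v.2, -v.1 - 1)
    | Sum.inl v => Sum.inr (v.2, -v.1 - 2)
  left_inv e := by rcases e with v | v <;> simp
  right_inv e := by rcases e with v | v <;> simp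

theorem rE_l (x y : ℤ) : rE (Sum.inl (x, y)) = Sum.inr (-y - 1, x) := rfl
theorem rE_r (x y : ℤ) : rE (Sum.inr (x, y)) = Sum.inl (-y - 2, x) := rfl

theorem ev1 (x y : ℤ) : Even (-y - 1 + x) ↔ ¬ Even (x + y) := by
  rw [Int.even_iff, Int.even_iff]; omega

theorem ev2 (x y : ℤ) : Even (-y - 2 + x) ↔ Even (x + y) := by
  rw [Int.even_iff, Int.even_iff]; omega

theorem rQ_apply (v : ℤ × ℤ) : rQ v = (-v.2 - 1, v.1) := rfl
theorem rS_apply (v : ℤ × ℤ) : rS v = (-v.2, v.1) := rfl

theorem nx_rot (ω : Cfg) (e : Ed) : nx (cC rQ false ω) (rE e) = rE (nx ω e) := by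
  have hc : ∀ x y : ℤ, cC rQ false ω (-y - 1, x) = ω (x, y) := by
    intro x y
    simp [cC, rl, fx, rQ]
  rcases e with ⟨x, y⟩ | ⟨x, y⟩
  · rw [rE_l]
    have h1 := ev1 x y
    by_cases hp : Even (x + y)
    · have h2 := hc (x + 1) y
      simp only [nx, h1, hp, not_true_eq_false, if_false, if_true, h2]
      cases ω (x + 1, y)
      · simp only [Bool.false_eq_true, if_false, rE_r]
        congr 1; ext <;> (simp; try ring)
      · simp only [if_true, rE_r]
        congr 1; ext <;> (simp; try ring)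
    · have h2 := hc x y
      simp only [nx, h1, hp, not_false_eq_true, if_false, if_true, h2]
      cases ω (x, y)
      · simp only [Bool.false_eq_true, if_false, rE_r]
        congr 1; ext <;> (simp; try ring)
      · simp only [if_true, rE_r]
        congr 1; ext <;> (simp; try ring)
  · rw [rE_r]
    have h1 := ev2 x y
    by_cases hp : Even (x + y)
    · have h2 := hc x y
      rw [show (-y - 1 : ℤ) = -y - 2 + 1 by ring] at h2
      simp only [nx, h1, hp, if_true, h2]
      cases ω (x, y)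
      · simp only [Bool.false_eq_true, if_false, rE_l]
        congr 1; ext <;> (simp; try ring)
      · simp only [if_true, rE_l]
        congr 1; ext <;> (simp; try ring)
    · have h2 := hc x (y + 1)
      rw [show (-(y + 1) - 1 : ℤ) = -y - 2 by ring] at h2
      simp only [nx, h1, hp, if_false, h2]
      cases ω (x, y + 1)
      · simp only [Bool.false_eq_true, if_false, rE_l]
        congr 1; ext <;> (simp; try ring)
      · simp only [if_true, rE_l]
        congr 1; ext <;> (simp; try ring)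

/-- The rotation. -/
def rot : Tr where
  o := false
  S := rS
  Q := rQ
  E := rE
  hd e := by
    rcases e with ⟨x, y⟩ | ⟨x, y⟩
    · rw [rE_l]
      have h1 := ev1 x y
      by_cases hp : Even (x + y) <;> simp [hdv, h1, hp, rQ_apply]
    · rw [rE_r]
      have h1 := ev2 x y
      by_cases hp : Even (x + y) <;> simp [hdv, h1, hp, rQ_apply] <;> ring
  tl e := by
    rcases e with ⟨x, y⟩ | ⟨x, y⟩
    · rw [rE_l]
      have h1 := ev1 x y
      by_cases hp : Even (x + y) <;> simp [tlv, h1, hp, rQ_apply]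
    · rw [rE_r]
      have h1 := ev2 x y
      by_cases hp : Even (x + y) <;> simp [tlv, h1, hp, rQ_apply] <;> ring
  lf e := by
    rcases e with ⟨x, y⟩ | ⟨x, y⟩
    · rw [rE_l]
      have h1 := ev1 x y
      by_cases hp : Even (x + y) <;> simp [ls, h1, hp, rS_apply] <;> ring
    · rw [rE_r]
      have h1 := ev2 x y
      by_cases hp : Even (x + y) <;> simp [ls, h1, hp, rS_apply] <;> ring
  rt e := by
    rcases e with ⟨x, y⟩ | ⟨x, y⟩
    · rw [rE_l]
      have h1 := ev1 x y
      by_cases hp : Even (x + y) <;> simp [rs, h1, hp, rS_apply] <;> ring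
    · rw [rE_r]
      have h1 := ev2 x y
      by_cases hp : Even (x + y) <;> simp [rs, h1, hp, rS_apply] <;> ring
  nx0 _ ω e := nx_rot ω e
  nx1 h := by simp at h
  co v z := by
    simp only [Co, rQ_apply, rS_apply]
    constructor <;> rintro ⟨h1, h2⟩ <;> constructor <;> omega
  dS z z' := by
    simp only [rS_apply, nm, Prod.fst_sub, Prod.snd_sub]
    rw [max_comm, show -z.2 - -z'.2 = -(z.2 - z'.2) by ring, abs_neg]

/-! ### Composition -/

/-- The identity. -/
def one : Tr where
  o := false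
  S := Equiv.refl _
  Q := Equiv.refl _
  E := Equiv.refl _
  hd _ := rfl
  tl _ := rfl
  lf _ := rfl
  rt _ := rfl
  nx0 _ ω e := rfl
  nx1 h := by simp at h
  co v z := Iff.rfl
  dS z z' := rfl

theorem cC_comp (P Q : Equiv.Perm (ℤ × ℤ)) (a b : Bool) (ω : Cfg) :
    cC (P.trans Q) (xor a b) ω = cC Q b (cC P a ω) := by
  funext v
  simp only [cC, rl, Equiv.symm_trans_apply]
  generalize ω _ = x
  revert a b x
  decide

/-- First `A`, then `B`. -/
def comp (A B : Tr) : Tr where
  o := xor A.o B.o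
  S := A.S.trans B.S
  Q := A.Q.trans B.Q
  E := A.E.trans B.E
  hd e := by
    rw [Equiv.trans_apply, Equiv.trans_apply, B.hd, A.hd, A.tl]
    rcases A.o with _ | _ <;> rcases B.o with _ | _ <;> rfl
  tl e := by
    rw [Equiv.trans_apply, Equiv.trans_apply, B.tl, A.hd, A.tl]
    rcases A.o with _ | _ <;> rcases B.o with _ | _ <;> rfl
  lf e := by
    rw [Equiv.trans_apply, Equiv.trans_apply, B.lf, A.lf, A.rt]
    rcases A.o with _ | _ <;> rcases B.o with _ | _ <;> rfl
  rt e := by
    rw [Equiv.trans_apply, Equiv.trans_apply, B.rt, A.lf, A.rt]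
    rcases A.o with _ | _ <;> rcases B.o with _ | _ <;> rfl
  nx0 h ω e := by
    rw [cC_comp, Equiv.trans_apply, Equiv.trans_apply]
    rcases hA : A.o with _ | _ <;> rcases hB : B.o with _ | _
    · have h1 := B.nx0 hB (cC A.Q A.o ω) (A.E e)
      have h2 := A.nx0 hA ω e
      rw [h2, hA, hB] at h1
      exact h1
    · rw [hA, hB] at h; simp at h
    · rw [hA, hB] at h; simp at h
    · have h2 := A.nx1 hA ω e
      have h1 := B.nx1 hB (cC A.Q A.o ω) (A.E (nx ω e))
      rw [h2, hA, hB] at h1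
      exact h1
  nx1 h ω e := by
    rw [cC_comp, Equiv.trans_apply, Equiv.trans_apply]
    rcases hA : A.o with _ | _ <;> rcases hB : B.o with _ | _
    · rw [hA, hB] at h; simp at h
    · have h2 := A.nx0 hA ω e
      have h1 := B.nx1 hB (cC A.Q A.o ω) (A.E e)
      rw [h2, hA, hB] at h1
      exact h1
    · have h2 := A.nx1 hA ω e
      have h1 := B.nx0 hB (cC A.Q A.o ω) (A.E (nx ω e))
      rw [h2, hA, hB] at h1
      exact h1
    · rw [hA, hB] at h; simp at h
  co v z := by
    rw [Equiv.trans_apply, Equiv.trans_apply, B.co, A.co]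
  dS z z' := by
    rw [Equiv.trans_apply, Equiv.trans_apply, B.dS, A.dS]

/-- The powers of the rotation. -/
def rp : Fin 4 → Tr := ![one, rot, rot.comp rot, (rot.comp rot).comp rot]

/-- The frame with origin `a` and first direction `dir r`. -/
def fr (a : ℤ × ℤ) (r : Fin 4) : Tr := (rp r).comp (tr a)

theorem fr_S (a : ℤ × ℤ) (r : Fin 4) (z : ℤ × ℤ) :
    (fr a r).S z = a + z.1 • E6.dir r + z.2 • E6.dir (r + 1) := by
  fin_cases r <;> ext <;> simp [fr, rp, comp, one, rot, tr, rS_apply, E6.dir] <;> ring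

theorem fr_Q (a : ℤ × ℤ) (r : Fin 4) (v : ℤ × ℤ) :
    (fr a r).Q v = E6.face ((fr a r).S v) r := by
  rw [fr_S]
  fin_cases r <;> ext <;> simp [fr, rp, comp, one, rot, tr, rQ_apply, E6.dir, E6.face] <;> ring

theorem face_near (v : ℤ × ℤ) (r : Fin 4) : |(E6.face v r).1 - v.1| ≤ 1 ∧
    |(E6.face v r).2 - v.2| ≤ 1 := by
  fin_cases r <;> simp [E6.face]

theorem fr_dQ (a : ℤ × ℤ) (r : Fin 4) (v z : ℤ × ℤ) :
    nm ((fr a r).Q v - (fr a r).S z) ≤ nm (v - z) + 1 := by
  rw [← (fr a r).dS v z, fr_Q]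
  obtain ⟨h1, h2⟩ := face_near ((fr a r).S v) r
  refine nm_add_one ?_ ?_
  · rw [Prod.fst_sub, Prod.fst_sub, sub_sub_sub_cancel_right]; exact h1
  · rw [Prod.snd_sub, Prod.snd_sub, sub_sub_sub_cancel_right]; exact h2

theorem fr_dQ' (a : ℤ × ℤ) (r : Fin 4) (v z : ℤ × ℤ) :
    nm (v - z) ≤ nm ((fr a r).Q v - (fr a r).S z) + 1 := by
  rw [← (fr a r).dS v z, fr_Q]
  obtain ⟨h1, h2⟩ := face_near ((fr a r).S v) r
  refine nm_add_one ?_ ?_
  · rw [Prod.fst_sub, Prod.fst_sub, sub_sub_sub_cancel_right, abs_sub_comm]; exact h1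
  · rw [Prod.snd_sub, Prod.snd_sub, sub_sub_sub_cancel_right, abs_sub_comm]; exact h2

end Tr

end Vale.Agent.P167.H760
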