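import Vale.Agent.P167.H760.Fr
import Vale.Agent.P167.H436.Geo
import Vale.Agent.P167.H632.Co
import Vale.Agent.P167.XDL.Enl2

/-!
# P167, block N-RED: the polygons of the core in a frame of a side
-/

namespace Vale.Agent.P167.H760

open Finset MeasureTheory Vale.Agent.P167.BR
open Vale.Agent.P167.H365 (Fl nm_le' nm_hdv_tlv)

/-! ### The enlarged polygons -/

theorem scon_dat (S : CA.Dat) {n : ℕ} (hn : 0 < n) : SCon (S.D n) :=
  BR.scon (Enl.isPolygon_qN hn S.poly 0) (Enl.encloses_qN hn S.poly S.enc 0)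

theorem coConn_dat (S : CA.Dat) {n : ℕ} (hn : 0 < n) : H318.CoConn (S.D n) :=
  H632.coConn_of_scon (scon_dat S hn)

theorem hpot_dat (S : CA.Dat) {n : ℕ} (hn : 0 < n) : H365.HPot (S.D n) :=
  fun _ _ hA => exists_potD (scon_dat S hn) hA

namespace Tr

variable (T : Tr) {D : Finset (ℤ × ℤ)}

/-- The domain in the frame. -/
def pre (D : Finset (ℤ × ℤ)) : Finset (ℤ × ℤ) := D.map T.Q.symm.toEmbedding

theorem mem_pre {v : ℤ × ℤ} : v ∈ T.pre D ↔ T.Q v ∈ D := by
  simp only [pre, mem_map, Equiv.coe_toEmbedding]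
  constructor
  · rintro ⟨w, hw, rfl⟩
    rwa [Equiv.apply_symm_apply]
  · intro h
    exact ⟨_, h, by rw [Equiv.symm_apply_apply]⟩

theorem im_pre : T.im (T.pre D) = D := by
  ext v
  rw [T.mem_im', T.mem_pre, Equiv.apply_symm_apply]

theorem hpot_pre (h : H365.HPot D) : H365.HPot (T.pre D) := by
  intro ω A hA
  have h1 : T.imE A ∈ pcs (T.C ω) (T.im (T.pre D)) := by
    rw [T.pcsT]
    exact mem_image_of_mem _ hA
  rw [T.im_pre] at h1
  obtain ⟨u, hu⟩ := h _ _ h1
  have h2 : PotD (T.im (T.pre D)) (T.imE A) u := by rw [T.im_pre]; exact hu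
  exact ⟨_, T.potD_T' h2⟩

theorem fr_adj (a : ℤ × ℤ) (r : Fin 4) {v w : ℤ × ℤ} (h : H318.Adj ((fr a r).Q v) ((fr a r).Q w)) :
    H318.Adj v w := by
  unfold H318.Adj at *
  fin_cases r <;> simp [fr, rp, comp, one, rot, tr, rQ_apply] at h ⊢ <;> omega

theorem fr_coConn (a : ℤ × ℤ) (r : Fin 4) (h : H318.CoConn D) :
    H318.CoConn ((fr a r).pre D) := by
  set T := fr a r with hT
  intro x y hx hy
  rw [T.mem_pre] at hx hy
  have h1 := h _ _ hx hy
  have key : ∀ b, Relation.ReflTransGen (fun a b => H318.Adj a b ∧ b ∉ D) (T.Q x) b →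
      Relation.ReflTransGen (fun a b => H318.Adj a b ∧ b ∉ T.pre D) x (T.Q.symm b) := by
    intro b hb
    induction hb with
    | refl =>
      rw [Equiv.symm_apply_apply]
    | @tail b c _ hbc ih =>
      refine ih.tail ⟨fr_adj a r ?_, ?_⟩
      · rw [← hT, Equiv.apply_symm_apply, Equiv.apply_symm_apply]
        exact hbc.1
      · rw [T.mem_pre, Equiv.apply_symm_apply]
        exact hbc.2
  have h2 := key _ h1
  rwa [Equiv.symm_apply_apply] at h2

/-- Transport of the paths of sites. -/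
theorem jn_pre {P P' : Ed → Prop} (hP : ∀ e, P (T.E e) → P' e) {x y : ℤ × ℤ}
    (h : H167.Jn D P (T.S x) (T.S y)) : H365.Jn (T.pre D) P' x y := by
  have key : ∀ b, Relation.ReflTransGen (H167.St D P) (T.S x) b →
      Relation.ReflTransGen (H365.Stp (T.pre D) P') x (T.S.symm b) := by
    intro b hb
    induction hb with
    | refl => rw [Equiv.symm_apply_apply]
    | @tail b c _ hbc ih =>
      refine ih.tail ?_
      obtain ⟨e, he, hPe, h3⟩ := hbc
      obtain ⟨e, rfl⟩ := T.E.surjective e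
      refine ⟨e, ?_, hP e hPe, ?_⟩
      · rw [← T.mem_edsT, T.im_pre]
        exact he
      · rw [T.lf, T.rt] at h3
        rcases ho : T.o with _ | _
        · rw [ho] at h3
          simp only [Bool.false_eq_true, if_false] at h3
          rcases h3 with ⟨rfl, rfl⟩ | ⟨rfl, rfl⟩
          · exact Or.inl ⟨by rw [Equiv.symm_apply_apply], by rw [Equiv.symm_apply_apply]⟩
          · exact Or.inr ⟨by rw [Equiv.symm_apply_apply], by rw [Equiv.symm_apply_apply]⟩
        · rw [ho] at h3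
          simp only [if_true] at h3
          rcases h3 with ⟨rfl, rfl⟩ | ⟨rfl, rfl⟩
          · exact Or.inr ⟨by rw [Equiv.symm_apply_apply], by rw [Equiv.symm_apply_apply]⟩
          · exact Or.inl ⟨by rw [Equiv.symm_apply_apply], by rw [Equiv.symm_apply_apply]⟩
  have h2 := key _ h
  rwa [Equiv.symm_apply_apply] at h2

/-- The connections of `Env` in the frame. -/
theorem fr_gf (a : ℤ × ℤ) (r : Fin 4) {m R : ℤ} {p : ℤ × ℤ} (hG : H167.Geo 2 m D p)
    (hm : 2 * R + 2 ≤ m) (y : ℤ × ℤ) (s : ℤ) (hs : 1 ≤ s) (hsR : s ≤ 2 * R) (z : ℤ × ℤ)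
    (hz : z ∈ sites ((fr a r).pre D)) (h1 : 8 * s < nm (z - y))
    (h2 : 8 * s < nm ((fr a r).S.symm p - y)) :
    H365.Jn ((fr a r).pre D) (fun e => s < nm (hdv e - y)) z ((fr a r).S.symm p) := by
  set T := fr a r with hT
  have h3 := hG.far (T.S y) (s + 2) (by omega) (by omega) (T.S z)
    (by rw [← T.sites_T, T.im_pre] at hz; exact hz) p hG.hp
    (by rw [T.dS]; omega)
    (by
      have : p = T.S (T.S.symm p) := (Equiv.apply_symm_apply _ _).symm
      rw [this, T.dS]; omega)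
  refine T.jn_pre (P := fun e => s + 2 < nm (hdv e - T.S y)) (fun e he => ?_)
    (by rw [Equiv.apply_symm_apply]; exact h3)
  have h4 := nm_hdv_tlv y e
  have h5 : nm (hdv (T.E e) - T.S y) ≤ nm ((if T.o then tlv e else hdv e) - y) + 1 := by
    rw [T.hd]
    exact fr_dQ a r _ _
  split_ifs at h5 <;> omega

end Tr

/-! ### Distance between a point of a side and another side -/

theorem side_far {n : ℤ} {w w' : ℤ × ℤ} {r r' : Fin 4} {x k m : ℤ} (hk0 : 0 ≤ k) (hkn : k ≤ n)
    (hx1 : m < x) (hx2 : x + m < n) (hne1 : ¬ (w' = w + E6.dir r ∧ r' = r + 2))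
    (hne2 : w' = w → r' = r → m < |x - k|) :
    m < nm ((n • w' + k • E6.dir r') - (n • w + x • E6.dir r)) := by
  obtain ⟨a, b⟩ := w
  obtain ⟨a', b'⟩ := w'
  have key : ∀ a a' : ℤ, (a' = a ∧ n * a' = n * a) ∨ (a' = a + 1 ∧ n * a' = n * a + n) ∨
      (a' = a - 1 ∧ n * a' = n * a - n) ∨ (a + 2 ≤ a' ∧ n * a + 2 * n ≤ n * a') ∨
      (a' ≤ a - 2 ∧ n * a' ≤ n * a - 2 * n) := by
    intro a a'
    have hn : 0 ≤ n := by omega
    rcases lt_trichotomy a' a with h | h | h
    · by_cases h' : a' = a - 1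
      · exact Or.inr (Or.inr (Or.inl ⟨h', by rw [h']; ring⟩))
      · exact Or.inr (Or.inr (Or.inr (Or.inr ⟨by omega, by
          have : a' ≤ a - 2 := by omega
          nlinarith⟩)))
    · exact Or.inl ⟨h, by rw [h]⟩
    · by_cases h' : a' = a + 1
      · exact Or.inr (Or.inl ⟨h', by rw [h']; ring⟩)
      · exact Or.inr (Or.inr (Or.inr (Or.inl ⟨by omega, by
          have : a + 2 ≤ a' := by omega
          nlinarith⟩)))
  have hk := key a a'
  have hk' := key b b'
  rw [show nm ((n • ((a', b') : ℤ × ℤ) + k • E6.dir r') - (n • ((a, b) : ℤ × ℤ) + x • E6.dir r)) =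
    max |(n * a' + k * (E6.dir r').1) - (n * a + x * (E6.dir r).1)|
      |(n * b' + k * (E6.dir r').2) - (n * b + x * (E6.dir r).2)| from rfl, lt_max_iff, lt_abs,
    lt_abs]
  rw [lt_abs] at hne2
  clear key
  rw [Prod.ext_iff] at hne1 hne2
  generalize n * a = A at hk ⊢
  generalize n * b = B at hk' ⊢
  generalize n * a' = A' at hk ⊢
  generalize n * b' = B' at hk' ⊢
  fin_cases r <;> fin_cases r' <;> simp [E6.dir] at hne1 hne2 ⊢ <;> omega

end Vale.Agent.P167.H760
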