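import Vale.Agent.P167.H365.NInt
import Vale.Agent.P167.BR.Sym

/-!
# P167, block N-RED: symmetries of the lattice (rotations and translations)

A symmetry acts on squares (`Q`), sites (`S`), medial edges (`E`) and configurations (`C`); if `o`
is true the colours and the directions of the medial edges are exchanged. The functionals `XD`, `XT`,
`TA`, `WD` are invariant.
-/

namespace Vale.Agent.P167.H760

open Finset MeasureTheory Vale.Agent.P167.BR Vale.Agent.P167.H542
open Vale.Agent.P167.H135 (fx rl mp_rl)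
open Vale.Agent.P167.H167 (WD)
open Vale.Agent.P167.H365 (TA)

/-- `z` is a corner of the square `v`. -/
def Co (v z : ℤ × ℤ) : Prop := (z.1 = v.1 ∨ z.1 = v.1 + 1) ∧ (z.2 = v.2 ∨ z.2 = v.2 + 1)

/-- The action on the configurations. -/
def cC (Q : Equiv.Perm (ℤ × ℤ)) (o : Bool) (ω : Cfg) : Cfg := rl Q.symm o ω

/-- A symmetry of the lattice. -/
structure Tr where
  o : Bool
  S : Equiv.Perm (ℤ × ℤ)
  Q : Equiv.Perm (ℤ × ℤ)
  E : Equiv.Perm Ed
  hd : ∀ e, hdv (E e) = Q (if o then tlv e else hdv e)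
  tl : ∀ e, tlv (E e) = Q (if o then hdv e else tlv e)
  lf : ∀ e, ls (E e) = S (if o then rs e else ls e)
  rt : ∀ e, rs (E e) = S (if o then ls e else rs e)
  nx0 : o = false → ∀ ω e, nx (cC Q o ω) (E e) = E (nx ω e)
  nx1 : o = true → ∀ ω e, nx (cC Q o ω) (E (nx ω e)) = E e
  co : ∀ v z, Co (Q v) (S z) ↔ Co v z
  dS : ∀ z z', nm (S z - S z') = nm (z - z')

namespace Tr

variable (T : Tr) {ω : Cfg} {D : Finset (ℤ × ℤ)} {A : Finset Ed} {e e' : Ed}

/-- The action on the configurations. -/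
def C (ω : Cfg) : Cfg := cC T.Q T.o ω

theorem fx_fx (b x : Bool) : fx b (fx b x) = x := by cases b <;> cases x <;> rfl

theorem C_apply (ω : Cfg) (v : ℤ × ℤ) : T.C ω (T.Q v) = fx T.o (ω v) := by
  simp [C, cC, rl]

theorem C_apply' (ω : Cfg) (v : ℤ × ℤ) : T.C ω v = fx T.o (ω (T.Q.symm v)) := rfl

/-- The action on the configurations as a measurable equivalence. -/
noncomputable def CM : Cfg ≃ᵐ Cfg where
  toFun := T.C
  invFun := rl T.Q T.o
  left_inv ω := by funext v; simp [C, cC, rl, fx_fx]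
  right_inv ω := by funext v; simp [C, cC, rl, fx_fx]
  measurable_toFun := (mp_rl T.Q.symm T.o).measurable
  measurable_invFun := (mp_rl T.Q T.o).measurable

theorem integral_C (g : Cfg → ℝ) : ∫ ω, g (T.C ω) ∂μ = ∫ ω, g ω ∂μ :=
  (show MeasurePreserving T.CM μ μ from mp_rl T.Q.symm T.o).integral_comp' (g := g)

/-- The image of a domain. -/
def im (D : Finset (ℤ × ℤ)) : Finset (ℤ × ℤ) := D.map T.Q.toEmbedding

/-- The image of a set of edges. -/
def imE (A : Finset Ed) : Finset Ed := A.map T.E.toEmbedding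

theorem mem_im {v : ℤ × ℤ} : T.Q v ∈ T.im D ↔ v ∈ D := by simp [im]

theorem mem_im' {v : ℤ × ℤ} : v ∈ T.im D ↔ T.Q.symm v ∈ D := by
  rw [← T.mem_im (D := D), Equiv.apply_symm_apply]

theorem mem_imE : T.E e ∈ T.imE A ↔ e ∈ A := by simp [imE]

theorem mem_imE' : e ∈ T.imE A ↔ T.E.symm e ∈ A := by
  rw [← T.mem_imE (A := A), Equiv.apply_symm_apply]

theorem mem_edsT : T.E e ∈ eds (T.im D) ↔ e ∈ eds D := by
  rw [mem_eds, mem_eds, T.hd, T.tl, T.mem_im, T.mem_im]
  cases T.o
  · simp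
  · simp [or_comm]

theorem edsT : eds (T.im D) = T.imE (eds D) := by
  ext e
  rw [T.mem_imE', ← T.mem_edsT (D := D), Equiv.apply_symm_apply]

/-! ### Pieces -/

theorem eqvT (h : Relation.EqvGen (Nxt ω D) e e') :
    Relation.EqvGen (Nxt (T.C ω) (T.im D)) (T.E e) (T.E e') := by
  induction h with
  | rel x y h =>
    obtain ⟨h1, rfl⟩ := h
    rcases ho : T.o with _ | _
    · refine Relation.EqvGen.rel _ _ ⟨?_, (T.nx0 ho ω x).symm⟩
      rw [T.hd, ho, T.mem_im]
      exact h1
    · refine Relation.EqvGen.symm _ _ (Relation.EqvGen.rel _ _ ⟨?_, (T.nx1 ho ω x).symm⟩)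
      rw [T.hd, ho, T.mem_im]
      simp only [if_true]
      rw [tlv_nx]
      exact h1
  | refl x => exact Relation.EqvGen.refl _
  | symm x y _ ih => exact ih.symm
  | trans x y z _ _ ih1 ih2 => exact ih1.trans _ _ _ ih2

theorem eqvT' (h : Relation.EqvGen (Nxt (T.C ω) (T.im D)) e e') :
    Relation.EqvGen (Nxt ω D) (T.E.symm e) (T.E.symm e') := by
  induction h with
  | rel x y h =>
    obtain ⟨h1, rfl⟩ := h
    rcases ho : T.o with _ | _
    · have h2 := T.nx0 ho ω (T.E.symm x)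
      rw [Equiv.apply_symm_apply] at h2
      have h3 : T.E.symm (nx (T.C ω) x) = nx ω (T.E.symm x) := by
        rw [Equiv.symm_apply_eq]
        exact h2
      rw [h3]
      refine Relation.EqvGen.rel _ _ ⟨?_, rfl⟩
      have h4 := T.hd (T.E.symm x)
      rw [Equiv.apply_symm_apply, ho] at h4
      rw [h4, T.mem_im] at h1
      exact h1
    · -- `x = E y'`, `y' = nx ω z'`
      obtain ⟨z', hz'⟩ := (s_nx ω).2 (T.E.symm x)
      have h2 := T.nx1 ho ω z'
      rw [hz', Equiv.apply_symm_apply] at h2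
      have h3 : T.E.symm (nx (T.C ω) x) = z' := by
        rw [Equiv.symm_apply_eq]
        exact h2
      rw [h3]
      refine Relation.EqvGen.symm _ _ (Relation.EqvGen.rel _ _ ⟨?_, hz'.symm⟩)
      have h4 := T.hd (T.E.symm x)
      rw [Equiv.apply_symm_apply, ho] at h4
      rw [h4, T.mem_im] at h1
      simp only [if_true] at h1
      rw [← hz', tlv_nx] at h1
      exact h1
  | refl x => exact Relation.EqvGen.refl _
  | symm x y _ ih => exact ih.symm
  | trans x y z _ _ ih1 ih2 => exact ih1.trans _ _ _ ih2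

theorem pieceT : piece (T.C ω) (T.im D) (T.E e) = T.imE (piece ω D e) := by
  ext e'
  rw [T.mem_imE', mem_piece, mem_piece, ← T.mem_edsT (D := D) (e := T.E.symm e'),
    Equiv.apply_symm_apply]
  refine and_congr_right fun _ => ⟨fun h => ?_, fun h => ?_⟩
  · have := T.eqvT' h
    rwa [Equiv.symm_apply_apply] at this
  · have := T.eqvT h
    rwa [Equiv.apply_symm_apply] at this

theorem pcsT : pcs (T.C ω) (T.im D) = (pcs ω D).image T.imE := by
  unfold pcs
  rw [T.edsT, image_image]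
  ext B
  simp only [mem_image, Function.comp_apply]
  constructor
  · rintro ⟨e, he, rfl⟩
    rw [T.mem_imE'] at he
    refine ⟨_, he, ?_⟩
    rw [← T.pieceT, Equiv.apply_symm_apply]
  · rintro ⟨e, he, rfl⟩
    exact ⟨T.E e, T.mem_imE.2 he, T.pieceT⟩

theorem imE_inj : Function.Injective T.imE := map_injective _

theorem isLpT (hA : A ∈ pcs ω D) : IsLp (T.im D) (T.imE A) ↔ IsLp D A := by
  have key : IsLp (T.im D) (T.imE A) ↔ ∀ e ∈ A, (if T.o then tlv e else hdv e) ∈ D := by
    unfold IsLp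
    constructor
    · intro h e he
      have := h _ (T.mem_imE.2 he)
      rwa [T.hd, T.mem_im] at this
    · intro h e he
      have h1 := h _ (T.mem_imE'.1 he)
      rw [← T.mem_im, ← T.hd, Equiv.apply_symm_apply] at h1
      exact h1
  rw [key]
  cases T.o
  · rfl
  · simp only [if_true]
    constructor
    · intro h
      by_contra hcon
      obtain ⟨e, he, he'⟩ := exists_entry hA hcon
      exact he' (h e he)
    · exact fun h e he => h.tl hA he

theorem potD_T {u : ℤ × ℤ → ℤ} (hu : PotD D A u) : PotD (T.im D) (T.imE A)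
    fun z => if T.o then - u (T.S.symm z) else u (T.S.symm z) := by
  intro e he
  obtain ⟨e, rfl⟩ := T.E.surjective e
  rw [T.mem_edsT] at he
  have h1 := hu _ he
  have h2 : (if T.E e ∈ T.imE A then (1 : ℤ) else 0) = if e ∈ A then 1 else 0 := by
    by_cases h : e ∈ A
    · rw [if_pos h, if_pos (T.mem_imE.2 h)]
    · rw [if_neg h, if_neg fun h' => h (T.mem_imE.1 h')]
  rw [h2, T.lf, T.rt]
  cases T.o
  · simpa using h1
  · simp only [if_true, Equiv.symm_apply_apply, h1]
    ring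

theorem potD_T' {u : ℤ × ℤ → ℤ} (hu : PotD (T.im D) (T.imE A) u) : PotD D A
    fun z => if T.o then - u (T.S z) else u (T.S z) := by
  intro e he
  have h1 := hu _ (T.mem_edsT.2 he)
  have h2 : (if T.E e ∈ T.imE A then (1 : ℤ) else 0) = if e ∈ A then 1 else 0 := by
    by_cases h : e ∈ A
    · rw [if_pos h, if_pos (T.mem_imE.2 h)]
    · rw [if_neg h, if_neg fun h' => h (T.mem_imE.1 h')]
  rw [h2, T.lf, T.rt] at h1
  revert h1
  cases T.o
  · intro h1; simpa using h1
  · intro h1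
    simp only [if_true] at h1 ⊢
    rw [h1]
    ring

theorem sepT {z z' : ℤ × ℤ} : Sep (T.im D) (T.imE A) (T.S z) (T.S z') ↔ Sep D A z z' := by
  constructor
  · rintro ⟨u, hu, hne⟩
    refine ⟨_, T.potD_T' hu, ?_⟩
    cases T.o <;> simpa using hne
  · rintro ⟨u, hu, hne⟩
    refine ⟨_, T.potD_T hu, ?_⟩
    cases T.o <;> simpa using hne

theorem mem_sites' {z : ℤ × ℤ} : z ∈ sites D ↔ ∃ v ∈ D, Co v z := mem_sites

theorem sites_T {z : ℤ × ℤ} : T.S z ∈ sites (T.im D) ↔ z ∈ sites D := by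
  rw [mem_sites', mem_sites']
  constructor
  · rintro ⟨v, hv, h⟩
    obtain ⟨v, rfl⟩ := T.Q.surjective v
    exact ⟨v, T.mem_im.1 hv, (T.co v z).1 h⟩
  · rintro ⟨v, hv, h⟩
    exact ⟨T.Q v, T.mem_im.2 hv, (T.co v z).2 h⟩

theorem sites_im : sites (T.im D) = (sites D).map T.S.toEmbedding := by
  ext z
  obtain ⟨z, rfl⟩ := T.S.surjective z
  rw [T.sites_T]
  simp

variable (p : ℤ × ℤ) (f : ℤ × ℤ → ℝ)

theorem massT : mass (T.im D) (T.S p) f (T.imE A) = mass D p (fun z => f (T.S z)) A := by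
  classical
  unfold mass
  rw [T.sites_im, sum_map]
  refine sum_congr rfl fun z _ => ?_
  simp only [Equiv.coe_toEmbedding, T.sepT]

theorem wpT (hA : A ∈ pcs ω D) (t : ℝ) : wp (T.im D) (T.imE A) t = wp D A t := by
  unfold wp
  by_cases h : IsLp D A
  · rw [if_pos h, if_pos ((T.isLpT hA).2 h)]
  · rw [if_neg h, if_neg fun h' => h ((T.isLpT hA).1 h')]

theorem wpT' (hA : A ∈ pcs ω D) (t : ℝ) : wp' (T.im D) (T.imE A) t = wp' D A t := by
  unfold wp'
  by_cases h : IsLp D A
  · rw [if_pos h, if_pos ((T.isLpT hA).2 h)]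
  · rw [if_neg h, if_neg fun h' => h ((T.isLpT hA).1 h')]

theorem XD_T : XD (T.im D) (T.S p) f (T.C ω) = XD D p (fun z => f (T.S z)) ω := by
  classical
  unfold XD
  rw [T.pcsT, prod_image fun x _ y _ h => T.imE_inj h]
  refine prod_congr rfl fun A hA => ?_
  rw [T.massT, T.wpT hA]

theorem erase_T [DecidableEq (Finset Ed)] :
    ∏ B ∈ (pcs (T.C ω) (T.im D)).erase (T.imE A), wp (T.im D) B (mass (T.im D) (T.S p) f B) =
      ∏ B ∈ (pcs ω D).erase A, wp D B (mass D p (fun z => f (T.S z)) B) := by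
  have h1 : (pcs (T.C ω) (T.im D)).erase (T.imE A) = ((pcs ω D).erase A).image T.imE := by
    rw [T.pcsT]
    ext B
    simp only [mem_erase, mem_image]
    constructor
    · rintro ⟨h1, B, h2, rfl⟩
      exact ⟨B, ⟨fun h => h1 (by rw [h]), h2⟩, rfl⟩
    · rintro ⟨B, ⟨h1, h2⟩, rfl⟩
      exact ⟨fun h => h1 (T.imE_inj h), B, h2, rfl⟩
  rw [h1, prod_image fun x _ y _ h => T.imE_inj h]
  refine prod_congr rfl fun B hB => ?_
  rw [T.massT, T.wpT (mem_of_mem_erase hB)]

theorem TA_T (hA : A ∈ pcs ω D) :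
    TA (T.im D) (T.S p) f (T.C ω) (T.imE A) = TA D p (fun z => f (T.S z)) ω A := by
  classical
  unfold TA
  rw [T.massT, T.wpT' hA, T.erase_T p f]

theorem XT_T (z : ℤ × ℤ) :
    XT (T.im D) (T.S p) f (T.S z) (T.C ω) = XT D p (fun z => f (T.S z)) z ω := by
  classical
  unfold XT
  have h1 : (pcs (T.C ω) (T.im D)).filter (fun A => Sep (T.im D) A (T.S z) (T.S p)) =
      ((pcs ω D).filter fun A => Sep D A z p).image T.imE := by
    rw [T.pcsT, filter_image]
    congr 1
    ext A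
    rw [mem_filter, mem_filter, T.sepT]
  rw [h1, sum_image fun x _ y _ h => T.imE_inj h]
  refine sum_congr rfl fun A hA => ?_
  have hA' := (mem_filter.1 hA).1
  rw [T.massT, T.wpT' hA', T.erase_T p f]

theorem VD_T : VD (T.im D) (T.S p) f = VD D p (fun z => f (T.S z)) := by
  unfold VD
  rw [← T.integral_C]
  simp only [T.XD_T]

/-- **Invariance of the potential.** -/
theorem WD_T (z : ℤ × ℤ) : WD (T.im D) (T.S p) f (T.S z) = WD D p (fun z => f (T.S z)) z := by
  unfold WD
  rw [T.VD_T, ← T.integral_C (fun ω => XT (T.im D) (T.S p) f (T.S z) ω),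
    ← T.integral_C (fun ω => XT (T.im D) (T.S p) 0 (T.S z) ω)]
  simp only [T.XT_T]
  rfl

end Tr

end Vale.Agent.P167.H760
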